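import Vale.Agent.P284.H730.CY.S
import Vale.Agent.P284.H409.CY.Ext
import Vale.Agent.P284.H10.CY.MaxE
import Vale.Agent.P272.K.N.Smooth
import Vale.Agent.P272.K.R.Final

/-! P284, theorem CY (helper636): row R, regularity and extension. -/

open scoped Manifold ContDiff Topology NNReal ComplexOrder Matrix
open Filter Set Metric MeasureTheory

set_option maxSynthPendingDepth 3

noncomputable section

namespace Vale.Agent.P284.H636.CY

open Vale.Agent.P272.K Vale.Agent.P272.K.LIN Vale.Agent.P272.K.N Vale.Agent.P284.H248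
  Vale.Agent.P284.H894 Vale.Agent.P284.H894.G Vale.Agent.P284.H894.V Vale.Agent.P284.H409.K
  Vale.Agent.P284.H730.CY

variable {n : ℕ}

theorem sub_lev_psd {B : Bil n} (hB : ∀ v w, B v w = B w v) {R : ℝ} (hR : ‖B‖ ≤ R) :
    (((R / 2 : ℝ) : ℂ) • (1 : Matrix (Fin n) (Fin n) ℂ) - lev B).PosSemidef := by
  have hH : (((R / 2 : ℝ) : ℂ) • (1 : Matrix (Fin n) (Fin n) ℂ) - lev B).IsHermitian := by
    refine Matrix.IsHermitian.sub ?_ (lev_isHermitian hB)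
    rw [Matrix.IsHermitian, Matrix.conjTranspose_smul, Matrix.conjTranspose_one]
    simp
  refine Matrix.PosSemidef.of_dotProduct_mulVec_nonneg hH fun x => ?_
  have h1 : star x ⬝ᵥ x = ((∑ j, ‖x j‖ ^ 2 : ℝ) : ℂ) := by
    simp only [dotProduct, Pi.star_apply, Complex.ofReal_sum]
    refine Finset.sum_congr rfl fun j _ => ?_
    rw [RCLike.star_def, mul_comm, Complex.mul_conj, Complex.normSq_eq_norm_sq]
  have h0 : star x ⬝ᵥ ((((R / 2 : ℝ) : ℂ) • (1 : Matrix (Fin n) (Fin n) ℂ) - lev B) *ᵥ x) =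
      ((R / 2 * ∑ j, ‖x j‖ ^ 2 -
        (B (star x) (star x) + B (Complex.I • star x) (Complex.I • star x)) / 4 : ℝ) : ℂ) := by
    rw [Matrix.sub_mulVec, Matrix.smul_mulVec, Matrix.one_mulVec, dotProduct_sub, dotProduct_smul,
      lev_quadratic hB, h1, smul_eq_mul]
    push_cast
    ring
  rw [h0]
  have h2 : ‖x‖ ^ 2 ≤ ∑ j, ‖x j‖ ^ 2 := by
    have h3 : ‖x‖ ≤ Real.sqrt (∑ j, ‖x j‖ ^ 2) := by
      refine (pi_norm_le_iff_of_nonneg (Real.sqrt_nonneg _)).2 fun i => ?_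
      refine Real.le_sqrt_of_sq_le ?_
      exact Finset.single_le_sum (f := fun j => ‖x j‖ ^ 2) (fun j _ => by positivity)
        (Finset.mem_univ i)
    calc ‖x‖ ^ 2 ≤ Real.sqrt (∑ j, ‖x j‖ ^ 2) ^ 2 := by gcongr
      _ = _ := Real.sq_sqrt (Finset.sum_nonneg fun j _ => by positivity)
  have hle : ∀ y : Cm n, ‖y‖ = ‖x‖ → B y y ≤ R * ‖x‖ ^ 2 := fun y hy => by
    calc B y y ≤ ‖B y y‖ := Real.le_norm_self _
      _ ≤ ‖B‖ * ‖y‖ * ‖y‖ := B.le_opNorm₂ y y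
      _ ≤ R * ‖x‖ * ‖x‖ := by rw [hy]; gcongr
      _ = R * ‖x‖ ^ 2 := by ring
  have h4 := hle (star x) (norm_star x)
  have h5 := hle (Complex.I • star x) (by rw [norm_smul, Complex.norm_I, one_mul, norm_star])
  have hR0 : 0 ≤ R := (norm_nonneg _).trans hR
  have h6 : R * ‖x‖ ^ 2 ≤ R * ∑ j, ‖x j‖ ^ 2 := by gcongr
  exact_mod_cast (by linarith : (0:ℝ) ≤ R / 2 * ∑ j, ‖x j‖ ^ 2 -
        (B (star x) (star x) + B (Complex.I • star x) (Complex.I • star x)) / 4)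

theorem smul_psd {A : Matrix (Fin n) (Fin n) ℂ} (hA : A.PosSemidef) {c : ℝ} (hc : 0 ≤ c) :
    ((c : ℂ) • A).PosSemidef := by
  have : (0 : ℂ) ≤ (c : ℂ) := by exact_mod_cast hc
  exact hA.smul this

/-- the upper bound of the metric -/
theorem upper_psd {w : Matrix (Fin n) (Fin n) ℂ} (hw : w.IsHermitian) {lam : ℝ} (hlam : 0 < lam)
    (hlow : ∀ v : Cm n, lam * ∑ j, ‖v j‖ ^ 2 ≤
      (∑ j, ∑ k, w j k * v j * (starRingEnd ℂ) (v k)).re)
    {B : Bil n} (hB : ∀ v w, B v w = B w v) {R : ℝ} (hR : ‖B‖ ≤ R) :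
    (((1 + R / (2 * lam) : ℝ) : ℂ) • w - (w + lev B)).PosSemidef := by
  have hR0 : 0 ≤ R := (norm_nonneg _).trans hR
  have h1 := smul_psd (H10.CY.sub_one_psd hw hlow) (c := R / (2 * lam)) (by positivity)
  have h2 := h1.add (sub_lev_psd hB hR)
  have h3 : ((R / (2 * lam) : ℝ) : ℂ) • (w - (lam : ℂ) • (1 : Matrix (Fin n) (Fin n) ℂ)) +
      (((R / 2 : ℝ) : ℂ) • (1 : Matrix (Fin n) (Fin n) ℂ) - lev B) =
      ((1 + R / (2 * lam) : ℝ) : ℂ) • w - (w + lev B) := by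
    rw [smul_sub, smul_smul]
    have h4 : ((R / (2 * lam) : ℝ) : ℂ) * (lam : ℂ) = ((R / 2 : ℝ) : ℂ) := by
      rw [← Complex.ofReal_mul]
      congr 1
      field_simp
    rw [h4, Complex.ofReal_add, add_smul, Complex.ofReal_one, one_smul]
    abel
  rwa [h3] at h2

section
variable {Γ : Type} [Group Γ] {C : Coc n Γ} {α : ℝ}

theorem J2_symm (u : C2A C α) (p : Pt C) (v w : Cm n) : J2 C α u p v w = J2 C α u p w v := by
  rw [J2_apply]
  exact ((fn_contDiffAt u p).isSymmSndFDerivAt (by simp)).eq v w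

theorem cHess_fn (u : C2A C α) (p : Pt C) :
    cHess (fn u p.γ p.a) p.z = lev (J2 C α u p) := by
  rw [J2_apply]
  exact cHess_eq_lev (diffble2 (fn_contDiffAt u p))

theorem fn_compat (u : C2A C α) (γ : Γ) (a b : C.I) (z : Cm n) (hz : z ∈ C.O a b)
    (h1 : z ∈ C.V a) (h2 : C.T a b z ∈ C.V b) :
    fn u γ a z = fn u (γ * C.κ a b z) b (C.T a b z) := by
  have h3 := u.2.1 ⟨γ, a, z, h1⟩ ⟨γ * C.κ a b z, b, C.T a b z, h2⟩ ⟨hz, rfl, rfl⟩
  rw [fn, fam_of_mem _ _ _ h1, fam_of_mem _ _ _ h2]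
  exact h3

theorem fn_holder (u : C2A C α) (γ : Γ) (a : C.I) {y z : Cm n} (hy : y ∈ C.V a)
    (hz : z ∈ C.V a) : ‖fderiv ℝ (fderiv ℝ (fn u γ a)) y - fderiv ℝ (fderiv ℝ (fn u γ a)) z‖ ≤
      (J2 C α u).N1 * ‖y - z‖ ^ α := by
  have h := (J2 C α u).le_N1 ⟨γ, a, y, hy⟩ ⟨γ, a, z, hz⟩
  rw [J2_apply, J2_apply, wt_same] at h
  exact h

/-- regularity -/
theorem fn_smooth (K : KM C) {F : Γ → C.I → Cm n → ℝ} (hF : SmF C F) (h0 : 0 < α) (h1 : α < 1)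
    (s : ℝ) {u : C2A C α} (hu : u ∈ PosS K α) (he : Eqn K α F s u) (γ : Γ) (a : C.I) :
    ∀ z ∈ C.V a, ContDiffAt ℝ ∞ (fn u γ a) z := by
  have hVΩ : C.V a ⊆ C.Ω a := C.V_sub a
  refine contDiffAt_of_equation (R.reg (Cm n) h0 h1) (V_open C a) (χ := K.w a)
    (f := fun z => s * F γ a z) (fun z hz => (K.ku a).smooth z (hVΩ hz))
    (fun z hz => (K.ku a).pos z (hVΩ hz))
    (fun z hz => contDiffAt_const.mul (hF.smooth γ a z (hVΩ hz)))
    (fun z hz => fn_contDiffAt u ⟨γ, a, z, hz⟩) (fun x hx => ?_) (fun z hz => ?_)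
    (fun z hz => ?_)
  · obtain ⟨r, hr, hsub⟩ := Metric.isOpen_iff.1 (V_open C a) x hx
    exact ⟨r, hr, _, fun y hy z hz => fn_holder u γ a (hsub hy) (hsub hz)⟩
  · obtain ⟨c, hc, h⟩ := hu
    have h2 := h ⟨γ, a, z, hz⟩
    have h3 := cHess_fn u ⟨γ, a, z, hz⟩
    have hpos : ((c : ℂ) • K.w a z).PosDef := by
      have : (0 : ℂ) < (c : ℂ) := by exact_mod_cast hc
      exact ((K.ku a).pos z (hVΩ hz)).smul this
    have h4 := hpos.add_posSemidef h2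
    rw [← h3] at h4
    simpa using h4
  · have h2 := he ⟨γ, a, z, hz⟩
    have h3 := cHess_fn u ⟨γ, a, z, hz⟩
    rw [← h3] at h2
    exact h2

end

/-- **R** -/
theorem rStmt : RStmt := by
  intro n Γ _ C K F hF α h0 h1 s u hu he
  have hs : ∀ γ a, ∀ z ∈ C.V a, ContDiffAt ℝ ∞ (fn u γ a) z := fun γ a =>
    fn_smooth K hF h0 h1 s hu he γ a
  have hc : ∀ γ a b, ∀ z ∈ C.O a b, z ∈ C.V a → C.T a b z ∈ C.V b →
      fn u γ a z = fn u (γ * C.κ a b z) b (C.T a b z) := fun γ a b z hz => fn_compat u γ a b z hz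
  have hφ : SmF C (H409.CY.ext C (fn u)) := H409.CY.ext_smF hs hc
  set φ := H409.CY.ext C (fn u) with hφd
  have hev : ∀ γ a, ∀ z ∈ C.V a, φ γ a =ᶠ[𝓝 z] fn u γ a := fun γ a z hz => by
    filter_upwards [(V_open C a).mem_nhds hz] with y hy
    exact H409.CY.ext_self hc γ hy
  have hH : ∀ γ a, ∀ z (hz : z ∈ C.V a), cHess (φ γ a) z = lev (J2 C α u ⟨γ, a, z, hz⟩) :=
    fun γ a z hz => (C2.cHess_congr (hev γ a z hz)).trans (cHess_fn u ⟨γ, a, z, hz⟩)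
  have hWV : ∀ a, C.W a ⊆ C.V a := fun a => H10.CY.W_V C a
  have hVΩ : ∀ a, C.V a ⊆ C.Ω a := fun a => C.V_sub a
  have hsF : SmF C fun γ a z => s * F γ a z :=
    ⟨fun γ a z hz => contDiffAt_const.mul (hF.smooth γ a z hz), fun γ a b z hz => by
      show s * F γ a z = s * F _ _ _
      rw [hF.compat γ a b z hz]⟩
  obtain ⟨c, hc0, hcu⟩ := hu
  have hpd : ∀ γ a, ∀ z ∈ C.V a, (K.w a z + cHess (φ γ a) z).PosDef := fun γ a z hz => by
    have hpos : ((c : ℂ) • K.w a z).PosDef := by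
      have : (0 : ℂ) < (c : ℂ) := by exact_mod_cast hc0
      exact ((K.ku a).pos z (hVΩ a hz)).smul this
    have h4 := hpos.add_posSemidef (hcu ⟨γ, a, z, hz⟩)
    rw [← hH γ a z hz] at h4
    simpa using h4
  have hmaf : MAF C K (fun γ a z => s * F γ a z) φ := by
    refine H409.CY.maf_of K hsF hφ (fun γ a z hz => hpd γ a z (hWV a hz)) fun γ a z hz => ?_
    have h2 := he ⟨γ, a, z, hWV a hz⟩
    rw [hH γ a z (hWV a hz), (hev γ a z (hWV a hz)).self_of_nhds]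
    exact h2
  refine ⟨φ, hmaf, ⟨⟨‖u.1.1‖, fun γ a z hz => ?_⟩, ⟨1 + ‖J2 C α u‖ / (2 * K.lam), fun γ a z hz => ?_⟩,
    c, hc0, fun γ a z hz => ?_⟩, fun p => hev p.γ p.a p.z p.mem⟩
  · obtain ⟨h1, h2⟩ := H409.CY.bq_spec C hz
    set b := H409.CY.bq C a z
    rw [hφ.compat γ a b z h1, (hev _ _ _ (hWV b h2)).self_of_nhds, fn, fam_of_mem _ _ _ (hWV b h2)]
    exact (u.1.1).norm_apply_le _
  · obtain ⟨h1, h2⟩ := H409.CY.bq_spec C hz
    set b := H409.CY.bq C a z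
    have hV := hWV b h2
    have h3 := upper_psd ((K.ku b).pos _ (hVΩ b hV)).isHermitian K.lam_pos
      (K.low b _ (hVΩ b hV)) (J2_symm u ⟨γ * C.κ a b z, b, C.T a b z, hV⟩)
      ((J2 C α u).norm_apply_le _)
    rw [← hH _ _ _ hV] at h3
    have h4 := H409.CY.psd_conj (jac C a b z) h3
    rw [Matrix.mul_sub, Matrix.sub_mul, Matrix.mul_smul, Matrix.smul_mul, ← H409.CY.wH_T K hφ γ h1,
      ← K.change a b z h1] at h4
    exact h4
  · obtain ⟨h1, h2⟩ := H409.CY.bq_spec C hz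
    set b := H409.CY.bq C a z
    have hV := hWV b h2
    have h3 := hcu ⟨γ * C.κ a b z, b, C.T a b z, hV⟩
    rw [← hH _ _ _ hV] at h3
    have h4 := H409.CY.psd_conj (jac C a b z) h3
    rw [Matrix.mul_sub, Matrix.sub_mul, Matrix.mul_smul, Matrix.smul_mul, ← H409.CY.wH_T K hφ γ h1,
      ← K.change a b z h1] at h4
    exact h4

end Vale.Agent.P284.H636.CY
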