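import Vale.Agent.P284.H636.CY.I
import Vale.Agent.P284.H636.CY.R
import Vale.Agent.P284.H730.CY.S
import Vale.Agent.P284.H731.M0
import Vale.Agent.P284.H639.CY.M2
import Vale.Agent.P284.H913.CY.L3S
import Vale.Agent.P284.H953.CY.E
import Vale.Agent.P284.H977.CY.L2F
import Vale.Agent.P284.H287.CY.N1
import Vale.Agent.P284.H409.CY.N2

/-! P284, theorem CY (helper636): assembly of `CYEx`, the complex Monge-Ampère equation on Galois
coverings of compact Kähler manifolds. -/

noncomputable section

namespace Vale.Agent.P284.H636.CY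

open Vale.Agent.P284.H730.CY

/-- **CYEx** -/
theorem cyEx : CYEx :=
  H409.CY.n2 sStmt (H913.CY.linStmt sStmt (H977.CY.l2Concl sStmt)) H731.CY.m0Concl
    H639.CY.m2Concl (H953.CY.eStmt H731.CY.m0Concl H639.CY.m2Concl) iStmt H287.CY.n1Stmt rStmt

end Vale.Agent.P284.H636.CY
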