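import Vale.Agent.P284.H730.CY.Spec
import Vale.Agent.P272.K.N.Interp

/-! P284, theorem CY (helper636): interpolation. -/

open scoped Manifold ContDiff Topology NNReal ComplexOrder
open Filter Set Metric

set_option maxSynthPendingDepth 3

noncomputable section

namespace Vale.Agent.P284.H636.CY

open Vale.Agent.P272.K Vale.Agent.P272.K.LIN Vale.Agent.P272.K.N Vale.Agent.P284.H730.CY

/-- **I** -/
theorem iStmt : IStmt := by
  intro n c r R α β M hr hrR hα hαβ hβ δ hδ
  obtain ⟨ε, hε, h⟩ := interp c hr hrR hα (hαβ.le.trans hβ.le) hαβ M hδ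
  refine ⟨ε, hε, fun f hf hs hH => ?_⟩
  obtain ⟨h1, h2⟩ := h f hf hH hs
  exact ⟨fun z hz => h1 z (ball_subset_closedBall hz), fun z hz z' hz' =>
    h2 z (ball_subset_closedBall hz) z' (ball_subset_closedBall hz')⟩

end Vale.Agent.P284.H636.CY
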